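import Vale.Agent.P219.CH.Full.HalfSpace.Slice

/-!
P219: translations of a set whose derivative is close to a constant vector measure. For
`⟪v, ξ₀⟫ ≥ 0` almost no point outside the set moves into it under `x ↦ x + v`.
-/

namespace Vale.Agent.P219.CH.Full.HalfSpace

open MeasureTheory Set Filter Topology Metric Function
open scoped ContDiff RealInnerProductSpace Manifold

noncomputable section

variable {n : ℕ}

/-- The deviation of the vector measure in a ball. -/
def devi (π : Measure (E n)) (ξ : E n → E n) (ξ₀ : E n) (R : ℝ) : ℝ :=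
  ∫ x in closedBall (0 : E n) R, ‖ξ x - ξ₀‖ ∂π

/-- The set has derivative `-ξ π`. -/
def HasDer (S : Set (E n)) (π : Measure (E n)) (ξ : E n → E n) : Prop :=
  ∀ φ : E n → ℝ, ContDiff ℝ 1 φ → HasCompactSupport φ → ∀ w : E n,
    ∫ x in S, fderiv ℝ φ x w = ∫ x, φ x * ⟪ξ x, w⟫ ∂π

variable {S : Set (E n)} {π : Measure (E n)} [IsLocallyFiniteMeasure π] {ξ : E n → E n}
variable {ξ₀ : E n}

omit [IsLocallyFiniteMeasure π] in
theorem devi_nonneg (R : ℝ) : 0 ≤ devi π ξ ξ₀ R := integral_nonneg fun _ => norm_nonneg _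

theorem integrableOn_dev (hξ : LocallyIntegrable ξ π) (R : ℝ) :
    IntegrableOn (fun x => ‖ξ x - ξ₀‖) (closedBall (0 : E n) R) π :=
  ((hξ.integrableOn_isCompact (isCompact_closedBall 0 R)).sub
    (integrableOn_const (isCompact_closedBall (0 : E n) R).measure_lt_top.ne)).norm

theorem devi_mono (hξ : LocallyIntegrable ξ π) {R R' : ℝ} (h : R ≤ R') :
    devi π ξ ξ₀ R ≤ devi π ξ ξ₀ R' :=
  setIntegral_mono_set (integrableOn_dev hξ R') (Eventually.of_forall fun _ => norm_nonneg _)
    (closedBall_subset_closedBall h).eventuallyLE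

omit [IsLocallyFiniteMeasure π] in
theorem integrable_test_inner {φ : E n → ℝ} (hφ : Continuous φ) (hc : HasCompactSupport φ)
    (hξ : LocallyIntegrable ξ π) (w : E n) : Integrable (fun x => φ x * ⟪ξ x, w⟫) π := by
  have h := (hξ.integrable_smul_left_of_hasCompactSupport hφ hc)
  have h' := (innerSL ℝ (E := E n) w).integrable_comp h
  refine h'.congr (Eventually.of_forall fun x => ?_)
  simp [real_inner_comm w]

/-- A test function in `[0,1]` tested along `v` sees at least minus the deviation. -/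
theorem neg_test_le (hξ : LocallyIntegrable ξ π) {φ : E n → ℝ} (hφ : Continuous φ)
    (hc : HasCompactSupport φ) {R : ℝ} (hsupp : ∀ x, R < ‖x‖ → φ x = 0)
    (hmem : ∀ x, φ x ∈ Icc (0 : ℝ) 1) {v : E n} (hv : 0 ≤ ⟪v, ξ₀⟫) :
    -∫ x, φ x * ⟪ξ x, v⟫ ∂π ≤ ‖v‖ * devi π ξ ξ₀ R := by
  rw [← integral_neg, devi, ← integral_const_mul, ← integral_indicator measurableSet_closedBall]
  refine integral_mono (integrable_test_inner hφ hc hξ v).neg
    (IntegrableOn.integrable_indicator
      ((integrableOn_dev (ξ₀ := ξ₀) hξ R).const_mul ‖v‖) measurableSet_closedBall)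
    fun x => ?_
  by_cases hx : x ∈ closedBall (0 : E n) R
  · rw [indicator_of_mem hx]
    have h1 : -⟪ξ x, v⟫ ≤ ‖v‖ * ‖ξ x - ξ₀‖ := by
      have h2 := abs_real_inner_le_norm (ξ x - ξ₀) v
      rw [inner_sub_left, real_inner_comm ξ₀ v] at *
      nlinarith [(abs_le.1 h2).1]
    obtain ⟨h3, h4⟩ := hmem x
    calc -(φ x * ⟪ξ x, v⟫) = φ x * (-⟪ξ x, v⟫) := by ring
      _ ≤ φ x * (‖v‖ * ‖ξ x - ξ₀‖) := mul_le_mul_of_nonneg_left h1 h3
      _ ≤ ‖v‖ * ‖ξ x - ξ₀‖ := mul_le_of_le_one_left (by positivity) h4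
  · rw [indicator_of_notMem hx]
    have : φ x = 0 := hsupp x (by simpa using hx)
    simp [this]

/-- Translating in a direction with `⟪v, ξ₀⟫ ≥ 0` almost does not increase the mass of a test. -/
theorem shift_test (hder : HasDer S π ξ) (hξ : LocallyIntegrable ξ π)
    {χ : E n → ℝ} (hχ : ContDiff ℝ 1 χ) (hc : HasCompactSupport χ) {R : ℝ}
    (hsupp : ∀ x, R < ‖x‖ → χ x = 0) (hmem : ∀ x, χ x ∈ Icc (0 : ℝ) 1) {v : E n}
    (hv : 0 ≤ ⟪v, ξ₀⟫) :
    (∫ y in S, χ (y - v)) - ∫ y in S, χ y ≤ ‖v‖ * devi π ξ ξ₀ (R + ‖v‖) := by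
  set F : ℝ → ℝ := fun s => ∫ y in S, χ (y - s • v) with hF
  have hcs : ∀ s : ℝ, HasCompactSupport fun y => χ (y - s • v) := fun s =>
    hc.comp_homeomorph (Homeomorph.subRight (s • v))
  have hdc : Continuous fun y => fderiv ℝ χ y v :=
    (hχ.continuous_fderiv one_ne_zero).clm_apply continuous_const
  obtain ⟨C, hC⟩ := hdc.bounded_above_of_compact_support (hc.fderiv_apply ℝ v)
  have hder' : ∀ s ∈ Ioo (-1 : ℝ) 2,
      HasDerivAt F (∫ y in S, -fderiv ℝ χ (y - s • v) v) s := by
    intro s hs
    set B : E n → ℝ := (closedBall (0 : E n) (R + 2 * ‖v‖)).indicator fun _ => C with hB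
    have hcont : ∀ t : ℝ, Continuous fun y => χ (y - t • v) := fun t =>
      hχ.continuous.comp (continuous_id.sub continuous_const)
    have hcont' : Continuous fun y => -fderiv ℝ χ (y - s • v) v :=
      (hdc.comp (continuous_id.sub continuous_const)).neg
    refine (hasDerivAt_integral_of_dominated_loc_of_deriv_le
      (F := fun t y => χ (y - t • v)) (F' := fun t y => -fderiv ℝ χ (y - t • v) v)
      (bound := B) (s := Ioo (-1 : ℝ) 2) (Ioo_mem_nhds hs.1 hs.2)
      (Eventually.of_forall fun t => (hcont t).aestronglyMeasurable)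
      ((hcont s).integrable_of_hasCompactSupport (hcs s)).restrict
      hcont'.aestronglyMeasurable ?_ ?_ ?_).2
    · refine Eventually.of_forall fun y t ht => ?_
      simp only [hB, norm_neg]
      by_cases hy : y ∈ closedBall (0 : E n) (R + 2 * ‖v‖)
      · rw [indicator_of_mem hy]
        exact hC _
      · rw [indicator_of_notMem hy, norm_le_zero_iff]
        have h1 : R < ‖y - t • v‖ := by
          rw [mem_closedBall_zero_iff, not_le] at hy
          have h2 : ‖t • v‖ ≤ 2 * ‖v‖ := by
            rw [norm_smul, Real.norm_eq_abs]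
            exact mul_le_mul_of_nonneg_right (abs_le.2 ⟨by linarith [ht.1], ht.2.le⟩) (norm_nonneg v)
          linarith [norm_sub_norm_le y (t • v)]
        have h2 : χ =ᶠ[𝓝 (y - t • v)] fun _ => 0 :=
          eventually_of_mem ((isOpen_lt continuous_const continuous_norm).mem_nhds h1)
            fun z hz => hsupp z hz
        rw [h2.fderiv_eq, fderiv_const_apply]
        rfl
    · exact ((integrableOn_const (measure_closedBall_lt_top).ne).integrable_indicator
        measurableSet_closedBall).restrict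
    · refine Eventually.of_forall fun y t _ => ?_
      have h := (hχ.differentiable one_ne_zero (y - t • v)).hasFDerivAt.comp_hasDerivAt t
        (((hasDerivAt_id t).smul_const v).const_sub y)
      simpa [Function.comp_def] using h
  have hle : ∀ s ∈ Ioo (0 : ℝ) 1,
      (∫ y in S, -fderiv ℝ χ (y - s • v) v) ≤ ‖v‖ * devi π ξ ξ₀ (R + ‖v‖) := by
    intro s hs
    have hφ : ContDiff ℝ 1 fun y => χ (y - s • v) := hχ.comp (contDiff_id.sub contDiff_const)
    have he : ∀ y, fderiv ℝ (fun y => χ (y - s • v)) y v = fderiv ℝ χ (y - s • v) v :=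
      fun y => by rw [fderiv_comp_sub]
    rw [integral_neg]
    rw [show (fun y => fderiv ℝ χ (y - s • v) v) = fun y =>
      fderiv ℝ (fun y => χ (y - s • v)) y v from funext fun y => (he y).symm, hder _ hφ (hcs s) v]
    refine neg_test_le hξ hφ.continuous (hcs s) (fun x hx => hsupp _ ?_) (fun x => hmem _) hv
    have h2 : ‖s • v‖ ≤ ‖v‖ := by
      rw [norm_smul, Real.norm_eq_abs, abs_of_pos hs.1]
      exact mul_le_of_le_one_left (norm_nonneg v) hs.2.le
    linarith [norm_sub_norm_le x (s • v)]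
  have hsub : Icc (0 : ℝ) 1 ⊆ Ioo (-1 : ℝ) 2 := fun t ht => ⟨by linarith [ht.1], by linarith [ht.2]⟩
  have hmv := Convex.image_sub_le_mul_sub_of_deriv_le (convex_Icc (0 : ℝ) 1) (f := F)
    (fun t ht => (hder' t (hsub ht)).continuousAt.continuousWithinAt)
    (fun t ht => (hder' t (hsub (interior_subset ht))).differentiableAt.differentiableWithinAt)
    (C := ‖v‖ * devi π ξ ξ₀ (R + ‖v‖))
    (fun t ht => by
      rw [interior_Icc] at ht
      rw [(hder' t (hsub (Ioo_subset_Icc_self ht))).deriv]
      exact hle t ht)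
    0 ⟨le_rfl, zero_le_one⟩ 1 ⟨zero_le_one, le_rfl⟩ zero_le_one
  simpa [hF] using hmv

/-- Almost no point outside the set moves into it. -/
theorem shift_set (hS : MeasurableSet S) (hder : HasDer S π ξ) (hξ : LocallyIntegrable ξ π)
    {R : ℝ} (hR : 0 < R) {A : Set (E n)} (hA : MeasurableSet A)
    (hAR : A ⊆ closedBall 0 R) {v : E n} (hv : 0 ≤ ⟪v, ξ₀⟫)
    (hin : ∀ x ∈ A, x + v ∈ S) (hout : ∀ x ∈ A, x ∉ S) :
    volume.real A ≤ ‖v‖ * devi π ξ ξ₀ (2 * R + ‖v‖) := by
  refine le_of_forall_pos_le_add fun ε hε => ?_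
  have hAfin : volume A ≠ ⊤ :=
    ((measure_mono hAR).trans_lt measure_closedBall_lt_top).ne
  have hε' : (ENNReal.ofReal (ε / 4)) ≠ 0 := by simp [hε]
  obtain ⟨K, hKA, hK, hKd⟩ := hA.exists_isCompact_sdiff_lt hAfin hε'
  obtain ⟨U₀, hAU, hU₀, -, hUd⟩ := hA.exists_isOpen_sdiff_lt hAfin hε'
  set U := U₀ ∩ ball (0 : E n) (2 * R) with hU
  have hKU : K ⊆ U := fun x hx => ⟨hAU (hKA hx), by
    have := hAR (hKA hx)
    rw [mem_closedBall_zero_iff] at this
    rw [mem_ball_zero_iff]
    linarith⟩
  obtain ⟨χ, hχd, hrange, hsupp, hone⟩ :=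
    exists_contMDiff_support_eq_eq_one_iff (I := 𝓘(ℝ, E n)) (n := 1)
      (hU₀.inter isOpen_ball) hK.isClosed hKU
  have hχ : ContDiff ℝ 1 χ := contMDiff_iff_contDiff.1 hχd
  have hmem : ∀ x, χ x ∈ Icc (0 : ℝ) 1 := fun x => hrange ⟨x, rfl⟩
  have hout' : ∀ x, 2 * R < ‖x‖ → χ x = 0 := fun x hx => by
    by_contra h
    have hx' : x ∈ support χ := h
    rw [hsupp] at hx'
    have := hx'.2
    rw [mem_ball_zero_iff] at this
    linarith
  have hc : HasCompactSupport χ :=
    HasCompactSupport.of_support_subset_isCompact (isCompact_closedBall 0 (2 * R)) (by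
      rw [hsupp]
      exact fun x hx => ball_subset_closedBall hx.2)
  have hKfin : volume K ≠ ⊤ := hK.measure_lt_top.ne
  have hci : Integrable χ := hχ.continuous.integrable_of_hasCompactSupport hc
  have hciv : Integrable fun y => χ (y - v) := hci.comp_sub_right v
  -- first bound
  have h1 : volume.real K ≤ ∫ y in S, χ (y - v) := by
    have hP : MeasurableSet ((fun y => y - v) ⁻¹' K) := (measurable_id.sub_const v) hK.measurableSet
    have hPS : (fun y => y - v) ⁻¹' K ⊆ S := fun y hy => by
      have := hin _ (hKA hy)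
      simpa using this
    have hvol : volume.real ((fun y => y - v) ⁻¹' K) = volume.real K := by
      simp only [measureReal_def, (measurePreserving_sub_right volume v).measure_preimage
        hK.measurableSet.nullMeasurableSet]
    calc volume.real K = ∫ y in (fun y => y - v) ⁻¹' K, χ (y - v) := by
          rw [setIntegral_congr_fun hP (fun y hy => (hone (y - v)).1 hy), setIntegral_const, hvol]
          simp
      _ ≤ ∫ y in S, χ (y - v) :=
          setIntegral_mono_set hciv.integrableOn
            (Eventually.of_forall fun y => (hmem _).1) hPS.eventuallyLE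
  -- second bound
  have h2 : ∫ y in S, χ y ≤ volume.real (U₀ \ A) := by
    have hUA : volume (U₀ \ A) ≠ ⊤ := (hUd.trans ENNReal.ofReal_lt_top).ne
    rw [← integral_indicator hS]
    calc ∫ y, S.indicator χ y ≤ ∫ y, (U₀ \ A).indicator (fun _ => (1 : ℝ)) y := by
          refine integral_mono (hci.indicator hS)
            ((integrableOn_const hUA).integrable_indicator (hU₀.measurableSet.diff hA)) fun y => ?_
          by_cases hy : y ∈ S
          · rw [indicator_of_mem hy]
            by_cases hz : χ y = 0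
            · rw [hz]; exact indicator_nonneg (fun _ _ => zero_le_one) y
            · have hy' : y ∈ support χ := hz
              rw [hsupp] at hy'
              have hm : y ∈ U₀ \ A := ⟨hy'.1, fun hyA => hout y hyA hy⟩
              rw [indicator_of_mem hm]
              exact (hmem y).2
          · rw [indicator_of_notMem hy]; exact indicator_nonneg (fun _ _ => zero_le_one) y
      _ = volume.real (U₀ \ A) := by
          rw [integral_indicator (hU₀.measurableSet.diff hA), setIntegral_const]; simp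
  have h3 := shift_test hder hξ hχ hc hout' hmem hv
  have h4 : volume.real A ≤ volume.real K + ε / 4 := by
    have hd : volume.real (A \ K) ≤ ε / 4 :=
      ENNReal.toReal_le_of_le_ofReal (by linarith) hKd.le
    calc volume.real A = volume.real (K ∪ A \ K) := by rw [union_sdiff_cancel hKA]
      _ ≤ volume.real K + volume.real (A \ K) := measureReal_union_le _ _
      _ ≤ _ := by linarith
  have h5 : volume.real (U₀ \ A) ≤ ε / 4 :=
    ENNReal.toReal_le_of_le_ofReal (by linarith) hUd.le
  linarith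

/-- Pairs `x ∉ S`, `y ∈ S` with `⟪y - x, ξ₀⟫ ≥ 0` are rare. -/
theorem pair_bound (hS : MeasurableSet S) (hder : HasDer S π ξ) (hξ : LocallyIntegrable ξ π)
    {R : ℝ} (hR : 0 < R) {A B : Set (E n)} (hA : MeasurableSet A) (hB : MeasurableSet B)
    (hAR : A ⊆ closedBall 0 R) (hBR : B ⊆ closedBall 0 R)
    (hAB : ∀ x ∈ A, ∀ y ∈ B, 0 ≤ ⟪y - x, ξ₀⟫) :
    volume.real (A \ S) * volume.real (B ∩ S) ≤
      (2 * R) ^ n * omega n * (2 * R * devi π ξ ξ₀ (4 * R)) := by
  set A' := A \ S
  set B' := B ∩ S
  have hA' : MeasurableSet A' := hA.diff hS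
  have hB' : MeasurableSet B' := hB.inter hS
  set T : Set (E n × E n) := {p | p.1 ∈ A' ∧ p.1 + p.2 ∈ B'} with hT
  have hTm : MeasurableSet T :=
    (measurable_fst hA').inter ((measurable_fst.add measurable_snd) hB')
  have hmp := measurePreserving_prod_add (volume : Measure (E n)) (volume : Measure (E n))
  have h1 : volume A' * volume B' = ((volume : Measure (E n)).prod volume) T := by
    rw [← Measure.prod_prod,
      ← hmp.measure_preimage (hA'.prod hB').nullMeasurableSet]
    rfl
  set M : ℝ := 2 * R * devi π ξ ξ₀ (4 * R) with hM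
  have hM0 : 0 ≤ M := mul_nonneg (by linarith) (devi_nonneg _)
  have h2 : ((volume : Measure (E n)).prod volume) T ≤
      ENNReal.ofReal M * volume (closedBall (0 : E n) (2 * R)) := by
    rw [Measure.prod_apply_symm hTm, ← setLIntegral_const, ← lintegral_indicator
      measurableSet_closedBall]
    refine lintegral_mono fun v => ?_
    rcases eq_empty_or_nonempty ((fun x => (x, v)) ⁻¹' T) with he | ⟨x₁, hx₁A, hx₁B⟩
    · simp [he]
    · have hv2 : ‖v‖ ≤ 2 * R := by
        have ha := hAR hx₁A.1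
        have hb := hBR hx₁B.1
        rw [mem_closedBall_zero_iff] at ha hb
        calc ‖v‖ = ‖x₁ + v - x₁‖ := by simp
          _ ≤ ‖x₁ + v‖ + ‖x₁‖ := norm_sub_le _ _
          _ ≤ 2 * R := by linarith
      rw [indicator_of_mem (by simpa using hv2)]
      have hsm : MeasurableSet ((fun x => (x, v)) ⁻¹' T) := measurable_prodMk_right hTm
      have hsR : (fun x => (x, v)) ⁻¹' T ⊆ closedBall 0 R := fun x hx => hAR hx.1.1
      have hfin : volume ((fun x => (x, v)) ⁻¹' T) ≠ ⊤ :=
        ((measure_mono hsR).trans_lt measure_closedBall_lt_top).ne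
      have hpos : 0 ≤ ⟪v, ξ₀⟫ := by
        have := hAB x₁ hx₁A.1 (x₁ + v) hx₁B.1
        rwa [add_sub_cancel_left] at this
      have h3 := shift_set hS hder hξ hR hsm hsR hpos (fun x hx => hx.2.2) (fun x hx => hx.1.2)
      rw [← ENNReal.ofReal_toReal hfin]
      refine ENNReal.ofReal_le_ofReal (h3.trans ?_)
      exact mul_le_mul hv2 (devi_mono hξ (by linarith)) (devi_nonneg _) (by linarith)
  have hfin : ENNReal.ofReal M * volume (closedBall (0 : E n) (2 * R)) ≠ ⊤ :=
    ENNReal.mul_ne_top ENNReal.ofReal_ne_top measure_closedBall_lt_top.ne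
  have h4 := ENNReal.toReal_mono hfin (h1.le.trans h2)
  rw [ENNReal.toReal_mul, ENNReal.toReal_mul, ENNReal.toReal_ofReal hM0] at h4
  simp only [← measureReal_def] at h4
  rw [real_vol_closedBall n (by linarith : (0 : ℝ) ≤ 2 * R)] at h4
  linarith

end

end Vale.Agent.P219.CH.Full.HalfSpace
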