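import Vale.Agent.P219.CH.Full.Defs

/-!
P219: slices of Euclidean space by the hyperplanes orthogonal to a unit vector.
-/

namespace Vale.Agent.P219.CH.Full.HalfSpace

open MeasureTheory Set Filter Topology Metric
open scoped ContDiff RealInnerProductSpace

noncomputable section

variable {m : ℕ}

theorem omega_nonneg (m : ℕ) : 0 ≤ omega m := ENNReal.toReal_nonneg

theorem vol_closedBall (m : ℕ) {r : ℝ} (hr : 0 ≤ r) :
    volume (closedBall (0 : E m) r) = ENNReal.ofReal (r ^ m * omega m) := by
  rw [Measure.addHaar_closedBall volume (0 : E m) hr, finrank_euclideanSpace_fin, omega,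
    ENNReal.ofReal_mul (pow_nonneg hr m), ENNReal.ofReal_toReal measure_ball_lt_top.ne]

theorem real_vol_closedBall (m : ℕ) {r : ℝ} (hr : 0 ≤ r) :
    volume.real (closedBall (0 : E m) r) = r ^ m * omega m := by
  rw [measureReal_def, vol_closedBall m hr,
    ENNReal.toReal_ofReal (mul_nonneg (pow_nonneg hr m) (omega_nonneg m))]

/-- Coordinates adapted to a unit vector. -/
structure Frame (e : E (m + 1)) where
  /-- The hyperplane. -/
  ι : E m →L[ℝ] E (m + 1)
  norm_sq : ∀ (t : ℝ) y, ‖t • e + ι y‖ ^ 2 = t ^ 2 + ‖y‖ ^ 2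
  inner_eq : ∀ (t : ℝ) y, ⟪t • e + ι y, e⟫ = t
  meas : MeasurePreserving (fun p : ℝ × E m => p.1 • e + ι p.2)
    ((volume : Measure ℝ).prod volume) volume
  emb : MeasurableEmbedding fun p : ℝ × E m => p.1 • e + ι p.2

theorem exists_frame {e : E (m + 1)} (he : ‖e‖ = 1) : Nonempty (Frame e) := by
  classical
  have hs : Orthonormal ℝ (({(0 : Fin (m + 1))} : Set (Fin (m + 1))).domRestrict
      fun _ : Fin (m + 1) => e) := by
    refine ⟨fun _ => he, fun i j hij => absurd (Subtype.ext ?_) hij⟩
    exact i.2.trans j.2.symm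
  obtain ⟨b, hb⟩ := hs.exists_orthonormalBasis_extension_of_card_eq (by simp)
  have hb0 : b 0 = e := hb 0 rfl
  set J : (Fin m → ℝ) →ₗ[ℝ] (Fin (m + 1) → ℝ) :=
    { toFun := fun y => Fin.cons 0 y
      map_add' := fun y z => by ext i; refine Fin.cases ?_ (fun j => ?_) i <;> simp
      map_smul' := fun c y => by ext i; refine Fin.cases ?_ (fun j => ?_) i <;> simp }
  set ι₀ : E m →ₗ[ℝ] E (m + 1) := b.repr.symm.toLinearEquiv.toLinearMap ∘ₗ
    (WithLp.linearEquiv 2 ℝ (Fin (m + 1) → ℝ)).symm.toLinearMap ∘ₗ J ∘ₗ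
    (WithLp.linearEquiv 2 ℝ (Fin m → ℝ)).toLinearMap
  set ι := LinearMap.toContinuousLinearMap ι₀
  have hι : ∀ y, ι y = b.repr.symm (WithLp.toLp 2 (Fin.cons (0 : ℝ) (WithLp.ofLp y))) :=
    fun y => rfl
  have hP : ∀ (t : ℝ) y, t • e + ι y =
      b.repr.symm (WithLp.toLp 2 (Fin.cons t (WithLp.ofLp y))) := by
    intro t y
    apply b.repr.injective
    rw [map_add, map_smul, hι, LinearIsometryEquiv.apply_symm_apply,
      LinearIsometryEquiv.apply_symm_apply, ← hb0, b.repr_self]
    ext i
    refine Fin.cases ?_ (fun j => ?_) i <;> simp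
  have hcomb : MeasurePreserving (fun p : ℝ × E m => p.1 • e + ι p.2)
      ((volume : Measure ℝ).prod volume) volume := by
    have h1 : MeasurePreserving (fun p : ℝ × E m => (p.1, WithLp.ofLp p.2))
        ((volume : Measure ℝ).prod volume) ((volume : Measure ℝ).prod volume) :=
      (MeasurePreserving.id _).prod (PiLp.volume_preserving_ofLp (Fin m))
    have h2 := (volume_preserving_piFinSuccAbove (fun _ : Fin (m + 1) => ℝ) 0).symm _
    have h3 := PiLp.volume_preserving_toLp (Fin (m + 1))
    have h4 := b.repr.symm.measurePreserving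
    have h := h4.comp (h3.comp (h2.comp h1))
    have he : (fun p : ℝ × E m => p.1 • e + ι p.2) = (b.repr.symm) ∘ WithLp.toLp 2 ∘
        (MeasurableEquiv.piFinSuccAbove (fun _ : Fin (m + 1) => ℝ) 0).symm ∘
          fun p : ℝ × E m => (p.1, WithLp.ofLp p.2) := by
      funext p
      rw [hP]
      simp [MeasurableEquiv.piFinSuccAbove, Fin.insertNthEquiv]
    rw [he]
    exact h
  refine ⟨⟨ι, fun t y => ?_, fun t y => ?_, hcomb, hcomb.measurable.measurableEmbedding ?_⟩⟩
  · rw [hP, LinearIsometryEquiv.norm_map, EuclideanSpace.norm_sq_eq, Fin.sum_univ_succ,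
      EuclideanSpace.norm_sq_eq]
    simp
  · rw [hP, ← hb0, real_inner_comm, ← b.repr_apply_apply, LinearIsometryEquiv.apply_symm_apply]
    simp
  · intro p q h
    simp only [hP] at h
    have h' := congrArg (fun z => WithLp.ofLp (b.repr z)) h
    simp only [LinearIsometryEquiv.apply_symm_apply] at h'
    obtain ⟨ha, hb'⟩ := Fin.cons_inj.1 h'
    exact Prod.ext ha (WithLp.ofLp_injective 2 hb')

/-- A slab in a ball is small. -/
theorem slab_le {e : E (m + 1)} (he : ‖e‖ = 1) {r s : ℝ} (hr : 0 ≤ r) (hs : 0 ≤ s) :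
    volume.real (closedBall (0 : E (m + 1)) r ∩ {x | |⟪x, e⟫| ≤ s}) ≤
      2 * s * (r ^ m * omega m) := by
  obtain ⟨F⟩ := exists_frame he
  have hA : MeasurableSet (closedBall (0 : E (m + 1)) r ∩ {x | |⟪x, e⟫| ≤ s}) :=
    measurableSet_closedBall.inter (measurableSet_le
      ((continuous_id.inner continuous_const).abs.measurable) measurable_const)
  rw [measureReal_def, ← F.meas.measure_preimage hA.nullMeasurableSet]
  refine ENNReal.toReal_le_of_le_ofReal (by positivity [omega_nonneg m]) ?_
  refine (measure_mono (show _ ⊆ Icc (-s) s ×ˢ closedBall (0 : E m) r from ?_)).trans ?_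
  · rintro ⟨t, y⟩ ⟨h1, h2⟩
    rw [mem_ofPred_eq, F.inner_eq] at h2
    refine ⟨abs_le.1 h2, ?_⟩
    rw [mem_closedBall_zero_iff] at h1 ⊢
    nlinarith [F.norm_sq t y, norm_nonneg (t • e + F.ι y), norm_nonneg y, sq_nonneg t]
  · rw [Measure.prod_prod, Real.volume_Icc, vol_closedBall m hr,
      ← ENNReal.ofReal_mul (by linarith)]
    exact le_of_eq (congrArg ENNReal.ofReal (by ring))

/-- The derivative along `e` over the half space is the integral over the hyperplane. -/
theorem half_lower {e : E (m + 1)} (he : ‖e‖ = 1) {χ : E (m + 1) → ℝ} (hχ : ContDiff ℝ 1 χ)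
    (hc : HasCompactSupport χ) (h0 : ∀ x, 0 ≤ χ x) {ρ : ℝ} (hρ : 0 ≤ ρ)
    (h1 : ∀ x ∈ closedBall (0 : E (m + 1)) ρ, χ x = 1) :
    ρ ^ m * omega m ≤ ∫ x in {x | ⟪x, e⟫ < 0}, fderiv ℝ χ x e := by
  obtain ⟨F⟩ := exists_frame he
  have hm : MeasurableSet {x : E (m + 1) | ⟪x, e⟫ < 0} :=
    measurableSet_lt (continuous_id.inner continuous_const).measurable measurable_const
  have hd : Continuous fun x => fderiv ℝ χ x e :=
    (hχ.continuous_fderiv one_ne_zero).clm_apply continuous_const
  have hint : Integrable fun x => fderiv ℝ χ x e :=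
    hd.integrable_of_hasCompactSupport (hc.fderiv_apply ℝ e)
  set Φ : ℝ × E m → E (m + 1) := fun p => p.1 • e + F.ι p.2 with hΦ
  have hpre : Φ ⁻¹' {x | ⟪x, e⟫ < 0} = Iio (0 : ℝ) ×ˢ (univ : Set (E m)) := by
    ext ⟨t, y⟩
    simp [hΦ, F.inner_eq]
  have hinner : ∀ y, ∫ t in Iio (0 : ℝ), fderiv ℝ χ (Φ (t, y)) e = χ (F.ι y) := by
    intro y
    set f : ℝ → ℝ := fun t => χ (Φ (t, y)) with hf
    have hline : ContDiff ℝ 1 fun t : ℝ => Φ (t, y) := by
      simp only [hΦ]
      exact (contDiff_id.smul contDiff_const).add contDiff_const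
    have hder : ∀ t, HasDerivAt f (fderiv ℝ χ (Φ (t, y)) e) t := by
      intro t
      have h := ((hasDerivAt_id t).smul_const e).add_const (F.ι y)
      rw [one_smul] at h
      exact (hχ.differentiable one_ne_zero _).hasFDerivAt.comp_hasDerivAt t h
    have hfc : HasCompactSupport f := by
      obtain ⟨R, hR⟩ := hc.isCompact.isBounded.subset_closedBall 0
      refine HasCompactSupport.of_support_subset_isCompact (isCompact_Icc (a := -R) (b := R))
        fun t ht => ?_
      have h1 : Φ (t, y) ∈ closedBall (0 : E (m + 1)) R := hR (subset_tsupport _ ht)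
      rw [mem_closedBall_zero_iff] at h1
      have h2 := F.norm_sq t y
      have h3 : |t| ≤ R := by
        rw [abs_le]
        constructor <;> nlinarith [sq_nonneg ‖y‖, norm_nonneg (Φ (t, y))]
      exact abs_le.1 h3
    have hf1 : ContDiff ℝ 1 f := hχ.comp hline
    have h := hfc.integral_Iic_deriv_eq hf1 0
    rw [show deriv f = fun t => fderiv ℝ χ (Φ (t, y)) e from funext fun t => (hder t).deriv,
      integral_Iic_eq_integral_Iio] at h
    simpa [hf, hΦ] using h
  rw [← F.meas.setIntegral_preimage_emb F.emb (fun x => fderiv ℝ χ x e) {x | ⟪x, e⟫ < 0}]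
  rw [hpre, ← Measure.prod_restrict, Measure.restrict_univ]
  have hpint : Integrable (fun p => fderiv ℝ χ (Φ p) e)
      (((volume : Measure ℝ).restrict (Iio 0)).prod volume) := by
    have h : IntegrableOn (fun p => fderiv ℝ χ (Φ p) e) (Iio (0 : ℝ) ×ˢ (univ : Set (E m)))
        ((volume : Measure ℝ).prod volume) :=
      (F.meas.integrable_comp_of_integrable hint).integrableOn
    rwa [IntegrableOn, ← Measure.prod_restrict, Measure.restrict_univ] at h
  rw [integral_prod_symm _ hpint]
  simp only [hΦ] at hinner ⊢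
  simp only [hinner]
  have hκc : HasCompactSupport fun y => χ (F.ι y) := by
    obtain ⟨R, hR⟩ := hc.isCompact.isBounded.subset_closedBall 0
    refine HasCompactSupport.of_support_subset_isCompact (isCompact_closedBall 0 R) fun y hy => ?_
    have h1 := hR (subset_tsupport _ hy)
    rw [mem_closedBall_zero_iff] at h1 ⊢
    have h2 := F.norm_sq 0 y
    simp only [zero_smul, zero_add] at h2
    nlinarith [norm_nonneg (F.ι y), norm_nonneg y]
  have hκi : Integrable fun y => χ (F.ι y) :=
    (hχ.continuous.comp F.ι.continuous).integrable_of_hasCompactSupport hκc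
  calc ρ ^ m * omega m = ∫ _y in closedBall (0 : E m) ρ, (1 : ℝ) := by
        rw [setIntegral_const, real_vol_closedBall m hρ]; simp
    _ = ∫ y in closedBall (0 : E m) ρ, χ (F.ι y) := by
        refine setIntegral_congr_fun measurableSet_closedBall fun y hy => (h1 _ ?_).symm
        rw [mem_closedBall_zero_iff] at hy ⊢
        have h2 := F.norm_sq 0 y
        simp only [zero_smul, zero_add] at h2
        nlinarith [norm_nonneg (F.ι y), norm_nonneg y]
    _ ≤ ∫ y, χ (F.ι y) := setIntegral_le_integral hκi (Eventually.of_forall fun y => h0 _)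

end

end Vale.Agent.P219.CH.Full.HalfSpace
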